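import Vale.Agent.P098.Reg.Final
import Vale.Agent.P098.Reg.Rigid

/-!
# P098: one-homogeneous minimisers are half-space solutions up to dimension six
-/

namespace Vale.Agent.Results.P098.MinimisingConesUpToSix

open MeasureTheory Vale.Agent.P098.Reg

/-- In every dimension up to six a one-homogeneous minimiser in `H¹_loc` is a half-space solution
unless it vanishes almost everywhere, and the half-space solutions are such minimisers. -/
theorem result :
    ∀ d : ℕ, 1 ≤ d → d ≤ 6 →
      (∀ u : (Fin d → ℝ) → ℝ, SobMin u → HomogAE u → ¬ u =ᵐ[volume] 0 →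
        ∃ e : Fin d → ℝ, ∑ i, e i ^ 2 = 1 ∧ u =ᵐ[volume] fun x => max (∑ i, e i * x i) 0) ∧
      (∀ e : Fin d → ℝ, ∑ i, e i ^ 2 = 1 →
        SobMin (fun x : Fin d → ℝ => max (∑ i, e i * x i) 0) ∧
          HomogAE (fun x : Fin d → ℝ => max (∑ i, e i * x i) 0) ∧
          ¬ (fun x : Fin d → ℝ => max (∑ i, e i * x i) 0) =ᵐ[volume] 0) :=
  answer_sobolev rigidFour

end Vale.Agent.Results.P098.MinimisingConesUpToSix
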