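import Vale.Agent.P098.Cone.Example

/-!
# P098: one-homogeneous minimisers with pinched free boundary are flat
-/

namespace Vale.Agent.Results.P098.PinchedCones

open Vale.Agent.P098.Cone Set

/-- Rigidity under a cubic curvature condition, its case of pinched curvatures in dimension five, and
the half-space solutions, for which the hypotheses hold. -/
theorem result :
    (∀ (d : ℕ) (q : ℝ) (u w : (Fin d → ℝ) → ℝ) (O : Set (Fin d → ℝ)),
      3 ≤ d → q ≤ 1 → ((d : ℝ) - 3) / ((d : ℝ) - 1) ≤ q →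
      ((d : ℝ) - 2) ^ 2 < 4 * ((d : ℝ) - 1) * q →
      RegularCone u O w → IsMinimizer u → u ≠ 0 →
      (∀ x ∈ frontier {y | 0 < u y}, x ≠ 0 →
        ∑ i, ∑ j, ∑ k, hess w i k x * hess w k j x * hess w i j x
          ≤ (1 / q - 2) * meanCurv w x * ∑ i, ∑ j, hess w i j x ^ 2) →
      ∃ e : Fin d → ℝ, ∑ i, e i ^ 2 = 1 ∧ ∀ x, u x = max (∑ i, e i * x i) 0) ∧
    (∀ (u w : (Fin 5 → ℝ) → ℝ) (O : Set (Fin 5 → ℝ)),
      RegularCone u O w → IsMinimizer u → u ≠ 0 →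
      (∀ x ∈ frontier {y | 0 < u y}, x ≠ 0 → ∀ v : Fin 5 → ℝ, ∑ i, v i * pd w i x = 0 →
        0 ≤ ∑ i, ∑ j, hess w i j x * v i * v j ∧
          ∑ i, ∑ j, hess w i j x * v i * v j ≤ 3 / 4 * meanCurv w x * ∑ i, v i ^ 2) →
      ∃ e : Fin 5 → ℝ, ∑ i, e i ^ 2 = 1 ∧ ∀ x, u x = max (∑ i, e i * x i) 0) ∧
    (∀ (d : ℕ) (e : Fin d → ℝ), ∑ i, e i ^ 2 = 1 →
      RegularCone (fun x => max (∑ i, e i * x i) 0) univ (fun x => ∑ i, e i * x i) ∧
        IsMinimizer (fun x => max (∑ i, e i * x i) 0)) := by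
  refine ⟨fun d q u w O hd hq1 hqk hqh h hmin hne hc => ?_,
    fun u w O h hmin hne hp => flat_of_pinched h hmin hne hp,
    fun d e he => ⟨regularCone_half he, isMinimizer_half he⟩⟩
  refine flat_of_condition h hmin hne hd hq1 hqk hqh fun x hx hx0 => ?_
  have h1 := hc x hx hx0
  simp only [sq] at h1
  refine le_trans (le_of_eq ?_) h1
  simp only [dot2, hessMat, Finset.sum_mul]

end Vale.Agent.Results.P098.PinchedCones
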